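import Vale.Agent.P089GQ.Fin

namespace Vale.Agent.Results.P089.AAAssembly

open Vale.Agent.P089G Topology

/-- There is a finitely generated group `G` such that a classifying space for proper actions
exists and, for each model `X` of it, the assembly map `μ_0 : K_0^G(X) → K_0(C*_r(G))` exists, is
unique and is not surjective. -/
theorem result : ∃ (G : Type) (_ : Group G), Countable G ∧ Group.FG G ∧
    (∃ (X : Type) (_ : TopologicalSpace X) (_ : MulAction G X) (_ : ContinuousConstSMul G X)
      (_ : CWComplex (Set.univ : Set X)), IsEG G X) ∧
    ∀ (X : Type) [TopologicalSpace X] [MulAction G X] [ContinuousConstSMul G X]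
      [CWComplex (Set.univ : Set X)], IsEG G X →
    ∀ (K : Type) [NormedAddCommGroup K] [InnerProductSpace ℂ K] [CompleteSpace K]
      (b : HilbertBasis G ℂ K), P089GQ.AssemblyFails X b :=
  P089GQ.final

end Vale.Agent.Results.P089.AAAssembly
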